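import Vale.Agent.Lib.P042.UB.Weil.Psum

set_option autoImplicit false

namespace Vale.Agent.P042.UB

open Polynomial

/-- The characteristic polynomial of `x` in the field with `p^r` elements. -/
noncomputable def chp (p : ℕ) [Fact p.Prime] (r : ℕ) (x : GaloisField p r) : (ZMod p)[X] :=
  minpoly (ZMod p) x ^ (r / (minpoly (ZMod p) x).natDegree)

theorem lfb_isIntegral (p : ℕ) [Fact p.Prime] (r : ℕ) (x : GaloisField p r) :
    IsIntegral (ZMod p) x := Algebra.IsIntegral.isIntegral x

theorem chp_monic (p : ℕ) [Fact p.Prime] (r : ℕ) (hr : 1 ≤ r) (x : GaloisField p r) :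
    (chp p r x).Monic := by
  have _ := hr
  exact (minpoly.monic (lfb_isIntegral p r x)).pow _

theorem lfb_dvd (p : ℕ) [Fact p.Prime] (r : ℕ) (hr : 1 ≤ r) (x : GaloisField p r) :
    (minpoly (ZMod p) x).natDegree ∣ r := by
  have h := minpoly.degree_dvd (lfb_isIntegral p r x)
  rwa [GaloisField.finrank p (by omega : r ≠ 0)] at h

/-- PROOF. `deg (minpoly x)` divides `r = [GaloisField p r : ZMod p]`. -/
theorem chp_natDegree (p : ℕ) [Fact p.Prime] (r : ℕ) (hr : 1 ≤ r) (x : GaloisField p r) :
    (chp p r x).natDegree = r := by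
  unfold chp
  rw [(minpoly.monic (lfb_isIntegral p r x)).natDegree_pow]
  exact Nat.div_mul_cancel (lfb_dvd p r hr x)

theorem lfb_splits (p : ℕ) [Fact p.Prime] (r : ℕ) (x : GaloisField p r) :
    ((minpoly (ZMod p) x).map (algebraMap (ZMod p) (GaloisField p r))).Splits :=
  Normal.splits inferInstance x

theorem lfb_sep (p : ℕ) [Fact p.Prime] (r : ℕ) (x : GaloisField p r) :
    (minpoly (ZMod p) x).Separable := Algebra.IsSeparable.isSeparable (ZMod p) x

theorem lfb_nodup (p : ℕ) [Fact p.Prime] (r : ℕ) (x : GaloisField p r) :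
    ((minpoly (ZMod p) x).aroots (GaloisField p r)).Nodup :=
  nodup_roots (lfb_sep p r x).map

/-- the conjugates of `x` -/
noncomputable def lfbConj (p : ℕ) [Fact p.Prime] (r : ℕ) (x : GaloisField p r) :
    Finset (GaloisField p r) :=
  ⟨(minpoly (ZMod p) x).aroots (GaloisField p r), lfb_nodup p r x⟩

theorem mem_lfbConj (p : ℕ) [Fact p.Prime] (r : ℕ) (x y : GaloisField p r) :
    y ∈ lfbConj p r x ↔ aeval y (minpoly (ZMod p) x) = 0 := by
  unfold lfbConj
  rw [Finset.mem_mk, mem_aroots]
  exact ⟨fun h => h.2, fun h => ⟨minpoly.ne_zero (lfb_isIntegral p r x), h⟩⟩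

theorem card_lfbConj (p : ℕ) [Fact p.Prime] (r : ℕ) (x : GaloisField p r) :
    (lfbConj p r x).card = (minpoly (ZMod p) x).natDegree := by
  unfold lfbConj
  rw [Finset.card_mk, ← natDegree_map (algebraMap (ZMod p)
    (GaloisField p r)), (lfb_splits p r x).natDegree_eq_card_roots]

theorem lfb_prod (p : ℕ) [Fact p.Prime] (r : ℕ) (x : GaloisField p r) :
    (minpoly (ZMod p) x).map (algebraMap (ZMod p) (GaloisField p r)) =
      ∏ y ∈ lfbConj p r x, (X - C y) := by
  have h1 := (lfb_splits p r x).eq_prod_roots_of_monic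
    ((minpoly.monic (lfb_isIntegral p r x)).map _)
  rw [h1]
  rfl

theorem psum_minpoly (p : ℕ) [Fact p.Prime] (r : ℕ) (x : GaloisField p r) (l : ℕ) :
    algebraMap (ZMod p) (GaloisField p r) (psum (minpoly (ZMod p) x) l) =
      ∑ y ∈ lfbConj p r x, y ^ l := by
  rw [← psum_map _ _ (minpoly.monic (lfb_isIntegral p r x)), lfb_prod,
    psum_prod_X_sub_C]

open Classical in
/-- sums over the Galois group -/
theorem lfb_gal_sum (p : ℕ) [Fact p.Prime] (r : ℕ) (hr : 1 ≤ r) (x : GaloisField p r)
    (h : GaloisField p r → GaloisField p r) :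
    ∑ σ : Gal((GaloisField p r)/(ZMod p)), h (σ x) =
      (r / (minpoly (ZMod p) x).natDegree : ℕ) • ∑ y ∈ lfbConj p r x, h y := by
  have hmaps : ∀ σ ∈ (Finset.univ : Finset (Gal((GaloisField p r)/(ZMod p)))),
      σ x ∈ lfbConj p r x := by
    intro σ _
    rw [mem_lfbConj, aeval_algHom_apply, minpoly.aeval, map_zero]
  have hcard : ∀ y ∈ lfbConj p r x,
      (Finset.univ.filter (fun σ : Gal((GaloisField p r)/(ZMod p)) => σ x = y)).card =
      (Finset.univ.filter (fun σ : Gal((GaloisField p r)/(ZMod p)) => σ x = x)).card := by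
    intro y hy
    rw [mem_lfbConj] at hy
    obtain ⟨τ, hτ⟩ := minpoly.exists_algEquiv_of_root' (lfb_isIntegral p r x).isAlgebraic hy
    refine (Finset.card_bij (fun σ _ => τ * σ) ?_ ?_ ?_).symm
    · intro σ hσ
      rw [Finset.mem_filter] at hσ ⊢
      refine ⟨Finset.mem_univ _, ?_⟩
      rw [AlgEquiv.mul_apply, hσ.2, hτ]
    · intro σ _ σ' _ h
      exact mul_left_cancel h
    · intro σ hσ
      rw [Finset.mem_filter] at hσ
      refine ⟨τ⁻¹ * σ, ?_, ?_⟩
      · rw [Finset.mem_filter]
        refine ⟨Finset.mem_univ _, ?_⟩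
        rw [AlgEquiv.mul_apply, hσ.2, ← hτ]
        exact τ.symm_apply_apply x
      · rw [mul_inv_cancel_left]
  set c := (Finset.univ.filter (fun σ : Gal((GaloisField p r)/(ZMod p)) => σ x = x)).card with hc
  have hd : 0 < (minpoly (ZMod p) x).natDegree := minpoly.natDegree_pos (lfb_isIntegral p r x)
  have hcr : (minpoly (ZMod p) x).natDegree * c = r := by
    have h1 := Finset.card_eq_sum_card_fiberwise (f := fun σ : Gal((GaloisField p r)/(ZMod p)) =>
      σ x) hmaps
    rw [Finset.sum_congr rfl hcard, Finset.sum_const, card_lfbConj, Finset.card_univ,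
      Fintype.card_eq_nat_card, IsGalois.card_aut_eq_finrank,
      GaloisField.finrank p (by omega : r ≠ 0), smul_eq_mul] at h1
    exact h1.symm
  have hc' : r / (minpoly (ZMod p) x).natDegree = c :=
    Nat.div_eq_of_eq_mul_right hd hcr.symm
  rw [hc', ← Finset.sum_fiberwise_of_maps_to hmaps, Finset.smul_sum]
  refine Finset.sum_congr rfl fun y hy => ?_
  rw [← hcard y hy, ← Finset.sum_const]
  refine Finset.sum_congr rfl fun σ hσ => ?_
  rw [(Finset.mem_filter.1 hσ).2]

/-- PROOF. Over `K = GaloisField p r` the polynomial `chp x` is `∏_{i<r} (X - x^{p^i})` (or: it is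
the characteristic polynomial of multiplication by `x`), so `psum (chp x) l = Tr(x^l)` and
`fsum f (chp x) = Tr f(x)`. Alternative: `Algebra.trace = [K : F(x)] · (sum of conjugates)`
(`trace_eq_sum_roots` etc.), and `psum (minpoly x) l` is the sum of the `l`-th powers of the roots
in an algebraic closure (`psum_map`, `psum_prod_X_sub_C`). -/
theorem fsum_chp (p : ℕ) [Fact p.Prime] (f : (ZMod p)[X]) (r : ℕ) (hr : 1 ≤ r)
    (x : GaloisField p r) :
    fsum f (chp p r x) = Algebra.trace (ZMod p) (GaloisField p r) (aeval x f) := by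
  classical
  apply (algebraMap (ZMod p) (GaloisField p r)).injective
  rw [trace_eq_sum_automorphisms]
  have h1 := lfb_gal_sum p r hr x (fun y => aeval y f)
  have h2 : ∑ σ : Gal((GaloisField p r)/(ZMod p)), σ (aeval x f) =
      ∑ σ : Gal((GaloisField p r)/(ZMod p)), aeval (σ x) f :=
    Finset.sum_congr rfl fun σ _ => (aeval_algHom_apply σ x f).symm
  rw [h2, h1]
  unfold fsum chp
  rw [map_sum]
  have h3 : ∀ l, algebraMap (ZMod p) (GaloisField p r) (f.coeff l *
      psum (minpoly (ZMod p) x ^ (r / (minpoly (ZMod p) x).natDegree)) l) =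
      (r / (minpoly (ZMod p) x).natDegree : ℕ) •
        ∑ y ∈ lfbConj p r x, algebraMap (ZMod p) (GaloisField p r) (f.coeff l) * y ^ l := by
    intro l
    rw [map_mul, psum_pow _ (minpoly.monic (lfb_isIntegral p r x)), map_mul, psum_minpoly,
      map_natCast, nsmul_eq_mul, ← Finset.mul_sum]
    ring
  rw [Finset.sum_congr rfl fun l _ => h3 l, ← Finset.smul_sum, Finset.sum_comm]
  congr 1
  refine Finset.sum_congr rfl fun y _ => ?_
  rw [aeval_eq_sum_range]
  refine Finset.sum_congr rfl fun l _ => ?_
  rw [Algebra.smul_def]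

/-- The number of `x` with a given minimal polynomial. -/
theorem lfb_card_minpoly (p : ℕ) [Fact p.Prime] (r : ℕ) (hr : 1 ≤ r) (P : (ZMod p)[X])
    (hP : P.Monic) (hirr : Irreducible P) (hdvd : P.natDegree ∣ r) :
    Nat.card {x : GaloisField p r // minpoly (ZMod p) x = P} = P.natDegree := by
  have : Fact (Irreducible P) := ⟨hirr⟩
  have hfin : Module.finrank (ZMod p) (AdjoinRoot P) = P.natDegree := by
    rw [(AdjoinRoot.powerBasis hP.ne_zero).finrank, AdjoinRoot.powerBasis_dim]
  have hne : Nonempty (AdjoinRoot P →ₐ[ZMod p] GaloisField p r) := by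
    apply FiniteField.nonempty_algHom_of_finrank_dvd
    rw [hfin, GaloisField.finrank p (by omega : r ≠ 0)]
    exact hdvd
  obtain ⟨φ⟩ := hne
  set x₀ : GaloisField p r := φ (AdjoinRoot.root P) with hx₀
  have h0 : aeval x₀ P = 0 := by
    rw [hx₀, aeval_algHom_apply, AdjoinRoot.aeval_eq, AdjoinRoot.mk_self, map_zero]
  have hmin : minpoly (ZMod p) x₀ = P := (minpoly.eq_of_irreducible_of_monic hirr h0 hP).symm
  have h1 : ∀ x : GaloisField p r, minpoly (ZMod p) x = P ↔ x ∈ lfbConj p r x₀ := by
    intro x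
    rw [mem_lfbConj, hmin]
    constructor
    · intro h
      rw [← h]
      exact minpoly.aeval _ _
    · intro h
      exact (minpoly.eq_of_irreducible_of_monic hirr h hP).symm
  rw [Nat.card_congr (Equiv.subtypeEquivRight h1), Nat.card_eq_fintype_card, Fintype.card_coe,
    card_lfbConj, hmin]

open Classical in
/-- The count for one field. -/
theorem lfb_card_level (p : ℕ) [Fact p.Prime] (g : (ZMod p)[X]) (hg : g.Monic) (r : ℕ)
    (hr : 1 ≤ r) :
    Nat.card {x : GaloisField p r // chp p r x ∣ g} =
      ∑ P ∈ (UniqueFactorizationMonoid.normalizedFactors g).toFinset,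
        if P.natDegree ∣ r ∧
          r / P.natDegree ≤ (UniqueFactorizationMonoid.normalizedFactors g).count P
        then P.natDegree else 0 := by
  have hfin : Fintype (GaloisField p r) := Fintype.ofFinite _
  rw [Nat.card_eq_fintype_card, Fintype.card_subtype]
  have hmaps : ∀ x ∈ Finset.univ.filter (fun x : GaloisField p r => chp p r x ∣ g),
      minpoly (ZMod p) x ∈ (UniqueFactorizationMonoid.normalizedFactors g).toFinset := by
    intro x hx
    rw [Multiset.mem_toFinset, UniqueFactorizationMonoid.mem_normalizedFactors_iff' hg.ne_zero]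
    refine ⟨minpoly.irreducible (lfb_isIntegral p r x),
      (minpoly.monic (lfb_isIntegral p r x)).normalize_eq_self, ?_⟩
    refine dvd_trans ?_ (Finset.mem_filter.1 hx).2
    unfold chp
    apply dvd_pow_self
    have h1 := lfb_dvd p r hr x
    have h2 : 0 < (minpoly (ZMod p) x).natDegree := minpoly.natDegree_pos (lfb_isIntegral p r x)
    exact (Nat.div_pos (Nat.le_of_dvd (by omega) h1) h2).ne'
  rw [Finset.card_eq_sum_card_fiberwise hmaps]
  refine Finset.sum_congr rfl fun P hP => ?_
  rw [Multiset.mem_toFinset, UniqueFactorizationMonoid.mem_normalizedFactors_iff'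
    hg.ne_zero] at hP
  obtain ⟨hPirr, hPn, hPg⟩ := hP
  have hPm : P.Monic := by
    rw [← hPn]
    exact Polynomial.monic_normalize hPirr.ne_zero
  have hdiv : ∀ n : ℕ, P ^ n ∣ g ↔
      n ≤ (UniqueFactorizationMonoid.normalizedFactors g).count P := by
    intro n
    rw [pow_dvd_iff_le_emultiplicity,
      UniqueFactorizationMonoid.emultiplicity_eq_count_normalizedFactors hPirr hg.ne_zero, hPn]
    exact Nat.cast_le
  by_cases hd : P.natDegree ∣ r
  · have hcard := lfb_card_minpoly p r hr P hPm hPirr hd
    rw [Nat.card_eq_fintype_card, Fintype.card_subtype] at hcard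
    by_cases hc : r / P.natDegree ≤ (UniqueFactorizationMonoid.normalizedFactors g).count P
    · rw [if_pos ⟨hd, hc⟩, ← hcard]
      congr 1
      ext x
      simp only [Finset.mem_filter, Finset.mem_univ, true_and]
      constructor
      · rintro ⟨-, h⟩
        exact h
      · intro h
        refine ⟨?_, h⟩
        unfold chp
        rw [h, hdiv]
        exact hc
    · rw [if_neg (fun h => hc h.2), Finset.card_eq_zero, Finset.filter_eq_empty_iff]
      intro x hx hxP
      have h1 := (Finset.mem_filter.1 hx).2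
      unfold chp at h1
      rw [hxP, hdiv] at h1
      exact hc h1
  · rw [if_neg (fun h => hd h.1), Finset.card_eq_zero, Finset.filter_eq_empty_iff]
    intro x hx hxP
    apply hd
    rw [← hxP]
    exact lfb_dvd p r hr x

theorem lfb_count_aux (d c m : ℕ) (hd : 0 < d) (h : d * c ≤ m) :
    ((Finset.Icc 1 m).filter (fun r => d ∣ r ∧ r / d ≤ c)).card = c := by
  have h1 : (Finset.Icc 1 m).filter (fun r => d ∣ r ∧ r / d ≤ c) =
      (Finset.Icc 1 c).image (fun i => d * i) := by
    ext r
    simp only [Finset.mem_filter, Finset.mem_Icc, Finset.mem_image]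
    constructor
    · rintro ⟨⟨h1, -⟩, ⟨i, rfl⟩, h3⟩
      rw [Nat.mul_div_cancel_left _ hd] at h3
      refine ⟨i, ⟨?_, h3⟩, rfl⟩
      rcases Nat.eq_zero_or_pos i with rfl | h4
      · omega
      · exact h4
    · rintro ⟨i, ⟨h1, h2⟩, rfl⟩
      rw [Nat.mul_div_cancel_left _ hd]
      refine ⟨⟨Nat.mul_pos hd h1, ?_⟩, dvd_mul_right _ _, h2⟩
      exact (Nat.mul_le_mul_left d h2).trans h
  rw [h1, Finset.card_image_of_injective _ (fun a b hab => Nat.eq_of_mul_eq_mul_left hd hab)]
  simp

open Classical in
/-- Each monic `g` of degree `m` has exactly `m` representations `g = chp x * g'`.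

PROOF. For each monic irreducible `P` of degree `e` and each `i ≥ 1` with `P^i ∣ g` there are
exactly `e` elements `x ∈ GaloisField p (i e)` with minimal polynomial `P` (`P` divides
`X^{p^{ie}} - X`, which splits with simple roots), and `chp x = P^i`. So the number is
`∑_P e v_P(g) = m` (`g` is the product of `P^{v_P(g)}`). -/
theorem card_rep (p : ℕ) [Fact p.Prime] (g : (ZMod p)[X]) (hg : g.Monic) :
    ∑ r ∈ Finset.Icc 1 g.natDegree, Nat.card {x : GaloisField p r // chp p r x ∣ g} =
      g.natDegree := by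
  have h0 : ∀ r ∈ Finset.Icc 1 g.natDegree,
      Nat.card {x : GaloisField p r // chp p r x ∣ g} =
      ∑ P ∈ (UniqueFactorizationMonoid.normalizedFactors g).toFinset,
        if P.natDegree ∣ r ∧
          r / P.natDegree ≤ (UniqueFactorizationMonoid.normalizedFactors g).count P
        then P.natDegree else 0 := fun r hr =>
    lfb_card_level p g hg r (Finset.mem_Icc.1 hr).1
  rw [Finset.sum_congr rfl h0, Finset.sum_comm]
  have hprod : (UniqueFactorizationMonoid.normalizedFactors g).prod = g := by
    rw [UniqueFactorizationMonoid.prod_normalizedFactors_eq hg.ne_zero, hg.normalize_eq_self]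
  have hmon : ∀ P ∈ UniqueFactorizationMonoid.normalizedFactors g, P.Monic ∧ Irreducible P := by
    intro P hP
    rw [UniqueFactorizationMonoid.mem_normalizedFactors_iff' hg.ne_zero] at hP
    refine ⟨?_, hP.1⟩
    rw [← hP.2.1]
    exact Polynomial.monic_normalize hP.1.ne_zero
  have h1 : ∀ P ∈ (UniqueFactorizationMonoid.normalizedFactors g).toFinset,
      (∑ r ∈ Finset.Icc 1 g.natDegree, if P.natDegree ∣ r ∧
          r / P.natDegree ≤ (UniqueFactorizationMonoid.normalizedFactors g).count P
        then P.natDegree else 0) =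
      (UniqueFactorizationMonoid.normalizedFactors g).count P • P.natDegree := by
    intro P hP
    rw [Multiset.mem_toFinset] at hP
    obtain ⟨hPm, hPirr⟩ := hmon P hP
    rw [← Finset.sum_filter, Finset.sum_const]
    congr 1
    apply lfb_count_aux _ _ _ hPirr.natDegree_pos
    have h2 : P ^ (UniqueFactorizationMonoid.normalizedFactors g).count P ∣ g := by
      rw [pow_dvd_iff_le_emultiplicity,
        UniqueFactorizationMonoid.emultiplicity_eq_count_normalizedFactors hPirr hg.ne_zero,
        hPm.normalize_eq_self]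
    have h3 := natDegree_le_of_dvd h2 hg.ne_zero
    rw [hPm.natDegree_pow] at h3
    rw [mul_comm]
    exact h3
  rw [Finset.sum_congr rfl h1, ← Finset.sum_multiset_map_count]
  conv_rhs => rw [← hprod]
  rw [natDegree_multiset_prod_of_monic _ (fun P hP => (hmon P hP).1)]

/-- PROOF. `∑_{r=1}^m extSum r · A(m-r) = ∑_r ∑_x ∑_{g'} ψ(fsum f (chp x * g'))` by `fsum_chp`,
`fsum_mul`; group by `g = chp x * g'` (monic of degree `m`) and use `card_rep`. -/
theorem Acoef_rec (p : ℕ) [Fact p.Prime] (ψ : AddChar (ZMod p) ℂ) (f : (ZMod p)[X]) (m : ℕ)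
    (hm : 1 ≤ m) :
    (m : ℂ) * Acoef p ψ f m =
      ∑ r ∈ Finset.Icc 1 m, extSum p ψ f r * Acoef p ψ f (m - r) := by
  classical
  have _ := hm
  -- the term for `x`
  have hx : ∀ r ∈ Finset.Icc 1 m, ∀ x : GaloisField p r,
      ψ (Algebra.trace (ZMod p) (GaloisField p r) (aeval x f)) * Acoef p ψ f (m - r) =
        ∑ c : Fin m → ZMod p, if chp p r x ∣ mon c then ψ (fsum f (mon c)) else 0 := by
    intro r hr x
    rw [Finset.mem_Icc] at hr
    have hch := chp_monic p r hr.1 x
    have hchd := chp_natDegree p r hr.1 x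
    unfold Acoef
    rw [Finset.mul_sum, ← Finset.sum_filter]
    have hex : ∀ c : Fin (m - r) → ZMod p, ∃ d : Fin m → ZMod p,
        mon d = chp p r x * mon c := by
      intro c
      have h1 : (chp p r x * mon c).Monic := hch.mul (mon_monic c)
      have h2 : (chp p r x * mon c).natDegree = m := by
        rw [hch.natDegree_mul (mon_monic c), hchd, mon_natDegree]
        omega
      have h3 := exists_mon _ h1
      rw [h2] at h3
      exact h3
    choose T hT using hex
    refine Finset.sum_bij (fun c _ => T c) ?_ ?_ ?_ ?_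
    · intro c _
      rw [Finset.mem_filter]
      refine ⟨Finset.mem_univ _, ?_⟩
      rw [hT c]
      exact dvd_mul_right _ _
    · intro c _ c' _ h
      apply mon_injective
      apply mul_left_cancel₀ hch.ne_zero
      rw [← hT c, ← hT c', h]
    · intro d hd
      rw [Finset.mem_filter] at hd
      obtain ⟨g', hg'⟩ := hd.2
      have h1 : g'.Monic := by
        apply hch.of_mul_monic_left
        rw [← hg']
        exact mon_monic d
      have h2 : g'.natDegree = m - r := by
        have h3 := congrArg natDegree hg'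
        rw [hch.natDegree_mul h1, hchd, mon_natDegree] at h3
        omega
      have h3 := exists_mon _ h1
      rw [h2] at h3
      obtain ⟨c, hc⟩ := h3
      refine ⟨c, Finset.mem_univ _, ?_⟩
      apply mon_injective
      rw [hT c, hc, hg']
    · intro c _
      rw [hT c, fsum_mul f _ _ hch (mon_monic c), fsum_chp p f r hr.1 x, AddChar.map_add_eq_mul]
  have h1 : ∀ r ∈ Finset.Icc 1 m, extSum p ψ f r * Acoef p ψ f (m - r) =
      ∑ c : Fin m → ZMod p, (Nat.card {x : GaloisField p r // chp p r x ∣ mon c} : ℂ) *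
        ψ (fsum f (mon c)) := by
    intro r hr
    unfold extSum
    rw [Finset.sum_mul]
    let _ := Fintype.ofFinite (GaloisField p r)
    rw [Finset.sum_congr rfl fun x _ => hx r hr x, Finset.sum_comm]
    refine Finset.sum_congr rfl fun c _ => ?_
    rw [← Finset.sum_filter, Finset.sum_const, nsmul_eq_mul, Nat.card_eq_fintype_card,
      Fintype.card_subtype]
  rw [Finset.sum_congr rfl h1, Finset.sum_comm]
  unfold Acoef
  rw [Finset.mul_sum]
  refine Finset.sum_congr rfl fun c _ => ?_
  rw [← Finset.sum_mul]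
  congr 1
  have h2 := card_rep p (mon c) (mon_monic c)
  rw [mon_natDegree] at h2
  rw [← Nat.cast_sum, h2]

end Vale.Agent.P042.UB
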