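import Vale.Agent.Lib.P042.UB.Weil.LFunA
import Vale.Agent.Lib.P042.UB.Weil.LFunB

set_option autoImplicit false

namespace Vale.Agent.P042.UB

open Polynomial

/-- The L-function of an additive character sum. -/
theorem lfun (p : ℕ) [Fact p.Prime] (ψ : AddChar (ZMod p) ℂ) (hψ : ψ ≠ 1) (f : (ZMod p)[X])
    (hf : 1 ≤ f.natDegree) (hfp : f.natDegree < p) :
    ∃ A : ℕ → ℂ, A 0 = 1 ∧ (∀ m : ℕ, f.natDegree ≤ m → A m = 0) ∧
      ∀ m : ℕ, 1 ≤ m → (m : ℂ) * A m = ∑ r ∈ Finset.Icc 1 m, extSum p ψ f r * A (m - r) :=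
  ⟨Acoef p ψ f, Acoef_zero p ψ f, fun m hm => Acoef_eq_zero p ψ hψ f hf hfp m hm,
    fun m hm => Acoef_rec p ψ f m hm⟩

end Vale.Agent.P042.UB
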