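import Mathlib

set_option autoImplicit false

namespace Vale.Agent.P042.UB

open Polynomial

/-- the recursion determines the power sums -/
theorem rec_unique (A S S' : ℕ → ℂ) (hA0 : A 0 = 1)
    (hrec : ∀ m : ℕ, 1 ≤ m → (m : ℂ) * A m = ∑ r ∈ Finset.Icc 1 m, S r * A (m - r))
    (hrec' : ∀ m : ℕ, 1 ≤ m → (m : ℂ) * A m = ∑ r ∈ Finset.Icc 1 m, S' r * A (m - r)) :
    ∀ n : ℕ, 1 ≤ n → S n = S' n := by
  intro n
  induction n using Nat.strong_induction_on with
  | _ n ih =>
    intro hn
    obtain ⟨m, rfl⟩ : ∃ m, n = m + 1 := ⟨n - 1, by omega⟩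
    have h1 := hrec (m + 1) hn
    have h2 := hrec' (m + 1) hn
    rw [Finset.sum_Icc_succ_top (by omega)] at h1 h2
    have h3 : ∑ r ∈ Finset.Icc 1 m, S r * A (m + 1 - r) =
        ∑ r ∈ Finset.Icc 1 m, S' r * A (m + 1 - r) := by
      apply Finset.sum_congr rfl
      intro r hr
      rw [Finset.mem_Icc] at hr
      rw [ih r (by omega) hr.1]
    rw [h3, Nat.sub_self, hA0, mul_one] at h1
    rw [Nat.sub_self, hA0, mul_one] at h2
    linear_combination h2 - h1

/-- Newton's identities for the signed elementary symmetric functions of finitely many numbers. -/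
theorem newton_esymm {N : ℕ} (ω : Fin N → ℂ) (m : ℕ) :
    (m : ℂ) * ((-1) ^ m * (Finset.univ.val.map ω).esymm m) =
      ∑ r ∈ Finset.Icc 1 m, (-∑ j, ω j ^ r) *
        ((-1) ^ (m - r) * (Finset.univ.val.map ω).esymm (m - r)) := by
  have h := congrArg (MvPolynomial.aeval ω) (MvPolynomial.mul_esymm_eq_sum (Fin N) ℂ m)
  simp only [map_mul, map_natCast, map_sum, map_pow, map_neg, map_one,
    MvPolynomial.aeval_esymm_eq_multiset_esymm, MvPolynomial.psum, MvPolynomial.aeval_X] at h
  have h2 : ∑ x ∈ Finset.HasAntidiagonal.antidiagonal m with x.1 < m,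
      (-1 : ℂ) ^ x.1 * (Finset.univ.val.map ω).esymm x.1 * ∑ j, ω j ^ x.2 =
      ∑ r ∈ Finset.Icc 1 m, (∑ j, ω j ^ r) *
        ((-1) ^ (m - r) * (Finset.univ.val.map ω).esymm (m - r)) := by
    apply Finset.sum_bij' (fun x _ => x.2) (fun r _ => (m - r, r))
    · intro x hx
      rw [Finset.mem_filter, Finset.HasAntidiagonal.mem_antidiagonal] at hx
      rw [Finset.mem_Icc]
      omega
    · intro r hr
      rw [Finset.mem_Icc] at hr
      rw [Finset.mem_filter, Finset.HasAntidiagonal.mem_antidiagonal]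
      constructor
      · simp only
        omega
      · simp only
        omega
    · intro x hx
      rw [Finset.mem_filter, Finset.HasAntidiagonal.mem_antidiagonal] at hx
      ext
      · simp only
        omega
      · rfl
    · intro r _
      rfl
    · intro x hx
      rw [Finset.mem_filter, Finset.HasAntidiagonal.mem_antidiagonal] at hx
      have : m - x.2 = x.1 := by omega
      rw [this]
      ring
  rw [h2] at h
  have h3 : (-1 : ℂ) ^ m * (-1) ^ (m + 1) = -1 := by
    rw [← pow_add, show m + (m + 1) = 2 * m + 1 by ring, pow_succ, pow_mul]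
    norm_num
  calc (m : ℂ) * ((-1) ^ m * (Finset.univ.val.map ω).esymm m)
      = (-1) ^ m * ((m : ℂ) * (Finset.univ.val.map ω).esymm m) := by ring
    _ = ((-1) ^ m * (-1) ^ (m + 1)) * ∑ r ∈ Finset.Icc 1 m, (∑ j, ω j ^ r) *
        ((-1) ^ (m - r) * (Finset.univ.val.map ω).esymm (m - r)) := by rw [h]; ring
    _ = ∑ r ∈ Finset.Icc 1 m, (-∑ j, ω j ^ r) *
        ((-1) ^ (m - r) * (Finset.univ.val.map ω).esymm (m - r)) := by
      rw [h3, neg_one_mul, ← Finset.sum_neg_distrib]
      apply Finset.sum_congr rfl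
      intro r _
      ring

/-- PROOF. `L(T) = ∑_{m<k} A_m T^m`, `L(0) = 1`, factors over `ℂ` as `∏_{j<k-1} (1 - ω_j T)`
(reverse polynomial `X^{k-1} L(1/X)` is monic of degree `k-1`; take its roots `ω_j`). The numbers
`S'_n = - ∑_j ω_j^n` satisfy the same recursion `m A_m = ∑_{r=1}^m S'_r A_{m-r}` for all `m ≥ 1`
(Newton identities for all `m`, i.e. the power series identity `T L'/L = ∑ S'_n T^n`), and the
recursion determines `S_m` from `A` and `S_r`, `r < m`. -/
theorem exists_roots (k : ℕ) (hk : 1 ≤ k) (A S : ℕ → ℂ) (hA0 : A 0 = 1)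
    (hA : ∀ m : ℕ, k ≤ m → A m = 0)
    (hrec : ∀ m : ℕ, 1 ≤ m → (m : ℂ) * A m = ∑ r ∈ Finset.Icc 1 m, S r * A (m - r)) :
    ∃ ω : Fin (k - 1) → ℂ, ∀ n : ℕ, 1 ≤ n → S n = -∑ j, ω j ^ n := by
  obtain ⟨N, rfl⟩ : ∃ N, k = N + 1 := ⟨k - 1, by omega⟩
  change ∃ ω : Fin N → ℂ, ∀ n : ℕ, 1 ≤ n → S n = -∑ j, ω j ^ n
  -- the monic polynomial with the given coefficients
  let P : ℂ[X] := ∑ i ∈ Finset.range (N + 1), C (A (N - i)) * X ^ i
  have hcoeff : ∀ i, P.coeff i = if i ≤ N then A (N - i) else 0 := by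
    intro i
    simp only [P, finsetSum_coeff, coeff_C_mul, coeff_X_pow]
    simp only [mul_ite, mul_one, mul_zero, Finset.sum_ite_eq, Finset.mem_range]
    by_cases h : i ≤ N
    · rw [if_pos (by omega), if_pos h]
    · rw [if_neg (by omega), if_neg h]
  have hdeg : P.natDegree = N := by
    apply le_antisymm
    · rw [natDegree_le_iff_coeff_eq_zero]
      intro i hi
      rw [hcoeff, if_neg (by omega)]
    · apply le_natDegree_of_ne_zero
      rw [hcoeff, if_pos le_rfl, Nat.sub_self, hA0]
      exact one_ne_zero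
  have hmonic : P.Monic := by
    rw [Monic, leadingCoeff, hdeg, hcoeff, if_pos le_rfl, Nat.sub_self, hA0]
  have hcard : Multiset.card P.roots = N := by
    rw [← hdeg]
    exact IsAlgClosed.card_roots_eq_natDegree
  obtain ⟨ω, hω⟩ : ∃ ω : Fin N → ℂ, Finset.univ.val.map ω = P.roots := by
    refine ⟨fun i => P.roots.toList.get (i.cast (by rw [Multiset.length_toList, hcard])), ?_⟩
    have : (Finset.univ.val.map fun i : Fin N =>
        P.roots.toList.get (i.cast (by rw [Multiset.length_toList, hcard]))) =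
        ((P.roots.toList : List ℂ) : Multiset ℂ) := by
      rw [Fin.univ_val_map]
      congr 1
      apply List.ext_get
      · rw [List.length_ofFn, Multiset.length_toList, hcard]
      · intro i h1 h2
        simp
    rw [this, Multiset.coe_toList]
  have hAe : ∀ m, A m = (-1) ^ m * (Finset.univ.val.map ω).esymm m := by
    intro m
    rw [hω]
    by_cases hm : m ≤ N
    · have h1 := coeff_eq_esymm_roots_of_card (by rw [hcard, hdeg]) (p := P) (k := N - m)
        (by rw [hdeg]; omega)
      rw [hmonic.leadingCoeff, hdeg, hcoeff, if_pos (by omega), one_mul] at h1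
      rw [show N - (N - m) = m by omega] at h1
      exact h1
    · rw [hA m (by omega), Multiset.esymm, Multiset.powersetCard_eq_empty _ (by rw [hcard]; omega)]
      simp
  refine ⟨ω, ?_⟩
  apply rec_unique A S (fun n => -∑ j, ω j ^ n) hA0 hrec
  intro m _
  have h := newton_esymm ω m
  simp only [← hAe] at h
  exact h

/-- PROOF. Let `y_1, …, y_t` be the distinct nonzero values among the `z_j`, with multiplicities
`n_i ≥ 1`. For fixed `i` let `L(T) = ∑_l c_l T^l` be the Lagrange polynomial with `L(y_i) = 1`,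
`L(y_{i'}) = 0` for `i' ≠ i`. Then `∑_l c_l (∑_j z_j^{n+l}) = n_i y_i^n` for `n ≥ 1`, so
`‖y_i‖^n ≤ C' R^n` for all `n ≥ 1` with `C'` independent of `n`, hence `‖y_i‖ ≤ R`. -/
theorem power_sum_bound {t : ℕ} (z : Fin t → ℂ) (C R : ℝ) (hR : 0 < R)
    (h : ∀ n : ℕ, 1 ≤ n → ‖∑ j, z j ^ n‖ ≤ C * R ^ n) (j : Fin t) : ‖z j‖ ≤ R := by
  classical
  by_contra hcon
  push Not at hcon
  let y := z j
  let q : ℂ[X] := ∏ w ∈ (Finset.univ.image z).erase y, (X - Polynomial.C w)
  have hqy : q.eval y ≠ 0 := by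
    simp only [q, eval_prod, eval_sub, eval_X, eval_C]
    rw [Finset.prod_ne_zero_iff]
    intro w hw
    rw [Finset.mem_erase] at hw
    exact sub_ne_zero.2 (Ne.symm hw.1)
  have hqw : ∀ i, z i ≠ y → q.eval (z i) = 0 := by
    intro i hi
    simp only [q, eval_prod, eval_sub, eval_X, eval_C]
    apply Finset.prod_eq_zero (i := z i)
    · rw [Finset.mem_erase]
      exact ⟨hi, Finset.mem_image_of_mem _ (Finset.mem_univ _)⟩
    · exact sub_self _
  have key : ∀ n : ℕ, ∑ l ∈ Finset.range (q.natDegree + 1), q.coeff l * ∑ i, z i ^ (n + l) =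
      ((Finset.univ.filter fun i => z i = y).card : ℂ) * (y ^ n * q.eval y) := by
    intro n
    calc ∑ l ∈ Finset.range (q.natDegree + 1), q.coeff l * ∑ i, z i ^ (n + l)
        = ∑ i, z i ^ n * q.eval (z i) := by
          simp only [Finset.mul_sum]
          rw [Finset.sum_comm]
          apply Finset.sum_congr rfl
          intro i _
          rw [eval_eq_sum_range, Finset.mul_sum]
          apply Finset.sum_congr rfl
          intro l _
          rw [pow_add]
          ring
      _ = ∑ i ∈ Finset.univ.filter fun i => z i = y, z i ^ n * q.eval (z i) := by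
          symm
          apply Finset.sum_subset (Finset.subset_univ _)
          intro i _ hi
          rw [Finset.mem_filter] at hi
          push Not at hi
          rw [hqw i (hi (Finset.mem_univ _)), mul_zero]
      _ = ∑ i ∈ Finset.univ.filter fun i => z i = y, y ^ n * q.eval y := by
          apply Finset.sum_congr rfl
          intro i hi
          rw [Finset.mem_filter] at hi
          rw [hi.2]
      _ = _ := by rw [Finset.sum_const, nsmul_eq_mul]
  let K : ℝ := ∑ l ∈ Finset.range (q.natDegree + 1), ‖q.coeff l‖ * (C * R ^ l)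
  have hcard : 1 ≤ (Finset.univ.filter fun i => z i = y).card :=
    Finset.card_pos.2 ⟨j, by rw [Finset.mem_filter]; exact ⟨Finset.mem_univ _, rfl⟩⟩
  have bound : ∀ n : ℕ, 1 ≤ n → ‖y‖ ^ n * ‖q.eval y‖ ≤ K * R ^ n := by
    intro n hn
    have h1 : ‖y‖ ^ n * ‖q.eval y‖ ≤ ‖((Finset.univ.filter fun i => z i = y).card : ℂ) *
        (y ^ n * q.eval y)‖ := by
      rw [norm_mul, norm_mul, norm_pow, Complex.norm_natCast]
      have h0 : 0 ≤ ‖y‖ ^ n * ‖q.eval y‖ := by positivity
      have h1 : (1 : ℝ) ≤ ((Finset.univ.filter fun i => z i = y).card : ℝ) := by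
        exact_mod_cast hcard
      nlinarith
    refine h1.trans ?_
    rw [← key n]
    refine (norm_sum_le _ _).trans ?_
    rw [Finset.sum_mul]
    apply Finset.sum_le_sum
    intro l _
    rw [norm_mul]
    have h2 := h (n + l) (by omega)
    calc ‖q.coeff l‖ * ‖∑ i, z i ^ (n + l)‖ ≤ ‖q.coeff l‖ * (C * R ^ (n + l)) :=
          mul_le_mul_of_nonneg_left h2 (norm_nonneg _)
      _ = _ := by rw [pow_add]; ring
  have hr : 1 < ‖y‖ / R := by
    rw [one_lt_div hR]
    exact hcon
  have hqpos : 0 < ‖q.eval y‖ := norm_pos_iff.2 hqy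
  obtain ⟨n, hn⟩ := pow_unbounded_of_one_lt (K / ‖q.eval y‖) hr
  have hn2 : K / ‖q.eval y‖ < (‖y‖ / R) ^ (n + 1) :=
    hn.trans_le (pow_le_pow_right₀ hr.le (Nat.le_succ n))
  have h3 := bound (n + 1) (by omega)
  rw [div_pow, div_lt_div_iff₀ hqpos (by positivity)] at hn2
  exact absurd h3 (not_le.2 hn2)

end Vale.Agent.P042.UB
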