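import Vale.Agent.Lib.P042.UB.Weil.Stepanov
import Vale.Agent.Lib.P042.UB.Weil.LFun
import Vale.Agent.Lib.P042.UB.Weil.Roots

set_option autoImplicit false

namespace Vale.Agent.P042.UB

open Polynomial

/-- `extSum 1` is the sum over `ZMod p` (the field `GaloisField p 1` is `ZMod p`, e.g.
`GaloisField.equivZmodP`). -/
theorem extSum_one (p : ℕ) [Fact p.Prime] (ψ : AddChar (ZMod p) ℂ) (f : (ZMod p)[X]) :
    extSum p ψ f 1 = ∑ x : ZMod p, ψ (f.eval x) := by
  unfold extSum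
  let _ : Fintype _ := Fintype.ofFinite (GaloisField p 1)
  refine Fintype.sum_equiv (GaloisField.equivZmodP p).toEquiv _ _ fun x => ?_
  have h1 : Algebra.trace (ZMod p) (GaloisField p 1) (aeval x f)
      = f.eval (GaloisField.equivZmodP p x) := by
    rw [← Algebra.trace_eq_of_algEquiv (GaloisField.equivZmodP p), Algebra.trace_self_apply]
    have h2 := Polynomial.aeval_algHom_apply ((GaloisField.equivZmodP p : GaloisField p 1 ≃ₐ[ZMod p]
      ZMod p) : GaloisField p 1 →ₐ[ZMod p] ZMod p) x f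
    have h3 : (aeval (GaloisField.equivZmodP p x) : (ZMod p)[X] →ₐ[ZMod p] ZMod p) f
        = f.eval (GaloisField.equivZmodP p x) := by
      rw [Polynomial.coe_aeval_eq_eval]
    exact h2.symm.trans h3
  rw [h1]
  rfl

/-- PROOF. Let `K = GaloisField p (2ν)`, `N_c = #{x : Tr f(x) = c}`; the trace of `u ∈ K` is
`∑_{i<2ν} u^{p^i}` (e.g. `FiniteField.algebraMap_trace_eq_sum_pow` or the Frobenius powers as the
Galois group), so `stepanov` gives `N_c ≤ B := p^{2ν-1} + (2k+1) p^ν`. As `∑_c ψ(c) = 0`,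
`extSum (2ν) = ∑_c ψ(c) N_c = -∑_c ψ(c)(B - N_c)`, of norm
`≤ ∑_c (B - N_c) = p B - p^{2ν} = (2k+1) p p^ν`. -/
theorem extSum_even_le (p : ℕ) [Fact p.Prime] (ψ : AddChar (ZMod p) ℂ) (hψ : ψ ≠ 1)
    (f : (ZMod p)[X]) (hf : 1 ≤ f.natDegree) (hfp : f.natDegree < p) (ν : ℕ) (hν : 1 ≤ ν) :
    ‖extSum p ψ f (2 * ν)‖ ≤ (2 * f.natDegree + 1) * p * (p : ℝ) ^ ν := by
  classical
  unfold extSum
  let _ : Fintype _ := Fintype.ofFinite (GaloisField p (2 * ν))
  have hp : p.Prime := Fact.out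
  have hpR : (0 : ℝ) < p := by exact_mod_cast hp.pos
  have hcard : Fintype.card (GaloisField p (2 * ν)) = p ^ (2 * ν) := by
    rw [← Nat.card_eq_fintype_card, GaloisField.card p (2 * ν) (by omega)]
  set tr : GaloisField p (2 * ν) → ZMod p :=
    fun x => Algebra.trace (ZMod p) (GaloisField p (2 * ν)) (aeval x f) with htr
  set Nc : ZMod p → ℕ := fun c => (Finset.univ.filter fun x => tr x = c).card with hNc
  have hfin : Module.finrank (ZMod p) (GaloisField p (2 * ν)) = 2 * ν :=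
    GaloisField.finrank p (by omega)
  have hst : ∀ c, (p : ℝ) * Nc c ≤ (p : ℝ) ^ (2 * ν)
      + (2 * f.natDegree + 1) * p * (p : ℝ) ^ ν := by
    intro c
    have h1 := stepanov p (GaloisField p (2 * ν)) ν hν hcard f hf hfp c
    have h2 : (Finset.univ.filter (fun x : GaloisField p (2 * ν) =>
        ∑ i ∈ Finset.range (2 * ν), (aeval x f) ^ (p ^ i)
          = algebraMap (ZMod p) (GaloisField p (2 * ν)) c)).card = Nc c := by
      rw [hNc]
      congr 1
      refine Finset.filter_congr fun x _ => ?_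
      have h3 := FiniteField.algebraMap_trace_eq_sum_pow (ZMod p) (GaloisField p (2 * ν))
        (aeval x f)
      rw [hfin, Nat.card_zmod] at h3
      rw [← h3]
      exact (algebraMap (ZMod p) (GaloisField p (2 * ν))).injective.eq_iff
    rw [h2] at h1
    exact_mod_cast h1
  have hsum : ∑ x, ψ (tr x) = ∑ c, (Nc c : ℂ) * ψ c := by
    rw [← Finset.sum_fiberwise (s := Finset.univ) (g := tr)]
    refine Finset.sum_congr rfl fun c _ => ?_
    rw [Finset.sum_congr rfl (g := fun _ => ψ c), Finset.sum_const, nsmul_eq_mul]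
    intro x hx
    rw [(Finset.mem_filter.1 hx).2]
  have htot : ∑ c, (Nc c : ℝ) = (p : ℝ) ^ (2 * ν) := by
    have h1 : ∑ c, Nc c = Fintype.card (GaloisField p (2 * ν)) := by
      rw [← Finset.card_univ, Finset.card_eq_sum_card_fiberwise (f := tr) (t := Finset.univ)]
      intro x _
      exact Finset.mem_coe.2 (Finset.mem_univ _)
    rw [hcard] at h1
    exact_mod_cast h1
  set B : ℝ := ((p : ℝ) ^ (2 * ν) + (2 * f.natDegree + 1) * p * (p : ℝ) ^ ν) / p with hB
  have hNB : ∀ c, (Nc c : ℝ) ≤ B := fun c => by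
    rw [hB, le_div_iff₀ hpR, mul_comm]
    exact hst c
  have hψ0 : ∑ c, ψ c = 0 := by
    have := AddChar.sum_eq_zero_of_ne_one hψ
    exact this
  have hrw : ∑ c, (Nc c : ℂ) * ψ c = -∑ c, ((B - Nc c : ℝ) : ℂ) * ψ c := by
    have h1 : ∑ c, ((B - Nc c : ℝ) : ℂ) * ψ c = (B : ℂ) * ∑ c, ψ c - ∑ c, (Nc c : ℂ) * ψ c := by
      rw [Finset.mul_sum, ← Finset.sum_sub_distrib]
      refine Finset.sum_congr rfl fun c _ => ?_
      push_cast
      ring
    rw [h1, hψ0]
    ring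
  change ‖∑ x, ψ (tr x)‖ ≤ _
  rw [hsum, hrw, norm_neg]
  calc ‖∑ c, ((B - Nc c : ℝ) : ℂ) * ψ c‖ ≤ ∑ c, ‖((B - Nc c : ℝ) : ℂ) * ψ c‖ := norm_sum_le _ _
    _ = ∑ c, (B - Nc c) := by
        refine Finset.sum_congr rfl fun c _ => ?_
        rw [norm_mul, AddChar.norm_apply, mul_one, Complex.norm_real, Real.norm_eq_abs,
          abs_of_nonneg (sub_nonneg.2 (hNB c))]
    _ = p * B - (p : ℝ) ^ (2 * ν) := by
        rw [Finset.sum_sub_distrib, htot, Finset.sum_const, Finset.card_univ, ZMod.card,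
          nsmul_eq_mul]
    _ = (2 * f.natDegree + 1) * p * (p : ℝ) ^ ν := by
        rw [hB, mul_div_cancel₀ _ hpR.ne']
        ring

/-- Weil's bound for additive character sums of polynomials over a prime field.

PROOF. `lfun` and `exists_roots`: `extSum n = -∑_{j<k-1} ω_j^n`. By `extSum_even_le` and
`power_sum_bound` for `z_j = ω_j²`, `R = p`: `‖ω_j‖² ≤ p`. Then `extSum_one`. -/
theorem weil_bound (p : ℕ) [Fact p.Prime] (ψ : AddChar (ZMod p) ℂ) (hψ : ψ ≠ 1)
    (f : (ZMod p)[X]) (hf : 1 ≤ f.natDegree) (hfp : f.natDegree < p) :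
    ‖∑ x : ZMod p, ψ (f.eval x)‖ ≤ ((f.natDegree : ℝ) - 1) * Real.sqrt p := by
  have hp : p.Prime := Fact.out
  have hpR : (0 : ℝ) < p := by exact_mod_cast hp.pos
  obtain ⟨A, hA0, hA, hrec⟩ := lfun p ψ hψ f hf hfp
  obtain ⟨ω, hω⟩ := exists_roots f.natDegree hf A (extSum p ψ f) hA0 hA hrec
  have hz : ∀ j, ‖ω j ^ 2‖ ≤ p := by
    intro j
    refine power_sum_bound (fun j => ω j ^ 2) ((2 * f.natDegree + 1) * p) p hpR ?_ j
    intro n hn
    have h1 := extSum_even_le p ψ hψ f hf hfp n hn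
    rw [hω (2 * n) (by omega), norm_neg] at h1
    have h2 : ∑ j, (ω j ^ 2) ^ n = ∑ j, ω j ^ (2 * n) :=
      Finset.sum_congr rfl fun j _ => (pow_mul _ _ _).symm
    rw [h2]
    exact h1
  have hw : ∀ j, ‖ω j‖ ≤ Real.sqrt p := by
    intro j
    refine Real.le_sqrt_of_sq_le ?_
    rw [← norm_pow]
    exact hz j
  rw [← extSum_one p ψ f, hω 1 le_rfl, norm_neg]
  calc ‖∑ j, ω j ^ 1‖ ≤ ∑ j, ‖ω j ^ 1‖ := norm_sum_le _ _
    _ ≤ ∑ _j : Fin (f.natDegree - 1), Real.sqrt p := by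
        refine Finset.sum_le_sum fun j _ => ?_
        rw [pow_one]
        exact hw j
    _ = ((f.natDegree : ℝ) - 1) * Real.sqrt p := by
        rw [Finset.sum_const, Finset.card_univ, Fintype.card_fin, nsmul_eq_mul,
          Nat.cast_sub hf, Nat.cast_one]

end Vale.Agent.P042.UB
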