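import Vale.Agent.Lib.P042.UB.Defs

set_option autoImplicit false

namespace Vale.Agent.P042.UB

open Polynomial

/-- The exponential sum of `f` over the field with `p^r` elements (`r ≥ 1`). -/
noncomputable def extSum (p : ℕ) [Fact p.Prime] (ψ : AddChar (ZMod p) ℂ) (f : (ZMod p)[X])
    (r : ℕ) : ℂ :=
  letI := Fintype.ofFinite (GaloisField p r)
  ∑ x : GaloisField p r, ψ (Algebra.trace (ZMod p) (GaloisField p r) (aeval x f))

/-- The `l`-th power sum of the roots of a monic polynomial `g`, defined without roots by the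
logarithmic derivative of the reversed polynomial `g* = 1 + c_1 T + … + c_m T^m`:
`-T (g*)'/g* = ∑_{l ≥ 1} p_l T^l`. -/
noncomputable def psum {R : Type} [Field R] (g : R[X]) (l : ℕ) : R :=
  if l = 0 then (g.natDegree : R) else
    -PowerSeries.coeff l (PowerSeries.X * (PowerSeries.derivative R (g.reverse : PowerSeries R)) *
      (g.reverse : PowerSeries R)⁻¹)

/-- `∑_α f(α)` over the roots `α` of the monic polynomial `g`. -/
noncomputable def fsum {R : Type} [Field R] (f g : R[X]) : R :=
  ∑ l ∈ Finset.range (f.natDegree + 1), f.coeff l * psum g l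

/-- The monic polynomial of degree `m` with lower coefficients `c`. -/
noncomputable def mon {R : Type} [Field R] {m : ℕ} (c : Fin m → R) : R[X] :=
  X ^ m + ∑ i : Fin m, C (c i) * X ^ (i : ℕ)

/-- The coefficient `A m = ∑_{g monic of degree m} ψ(∑_α f(α))` of the L-function. -/
noncomputable def Acoef (p : ℕ) [Fact p.Prime] (ψ : AddChar (ZMod p) ℂ) (f : (ZMod p)[X])
    (m : ℕ) : ℂ :=
  ∑ c : Fin m → ZMod p, ψ (fsum f (mon c))

theorem mon_monic {R : Type} [Field R] {m : ℕ} (c : Fin m → R) : (mon c).Monic := by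
  unfold mon
  apply monic_X_pow_add
  refine lt_of_le_of_lt (degree_sum_le _ _) ?_
  rw [Finset.sup_lt_iff (by exact WithBot.bot_lt_coe m)]
  intro i _
  refine lt_of_le_of_lt (degree_C_mul_X_pow_le _ _) ?_
  exact_mod_cast i.2

theorem mon_natDegree {R : Type} [Field R] {m : ℕ} (c : Fin m → R) : (mon c).natDegree = m := by
  unfold mon
  apply natDegree_eq_of_degree_eq_some
  rw [degree_add_eq_left_of_degree_lt, degree_X_pow]
  rw [degree_X_pow]
  refine lt_of_le_of_lt (degree_sum_le _ _) ?_
  rw [Finset.sup_lt_iff (by exact WithBot.bot_lt_coe m)]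
  intro i _
  refine lt_of_le_of_lt (degree_C_mul_X_pow_le _ _) ?_
  exact_mod_cast i.2

end Vale.Agent.P042.UB
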