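import Vale.Agent.Lib.P042.UB.Weil.Psum

set_option autoImplicit false

namespace Vale.Agent.P042.UB

open Polynomial

theorem Acoef_zero (p : ℕ) [Fact p.Prime] (ψ : AddChar (ZMod p) ℂ) (f : (ZMod p)[X]) :
    Acoef p ψ f 0 = 1 := by
  have hmon : ∀ c : Fin 0 → ZMod p, mon c = 1 := by
    intro c
    simp [mon]
  have hf : fsum f (1 : (ZMod p)[X]) = 0 := by
    unfold fsum
    refine Finset.sum_eq_zero (fun l _ => ?_)
    rw [psum_one, mul_zero]
  unfold Acoef
  simp_rw [hmon, hf, AddChar.map_zero_eq_one]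
  simp

theorem sum_shift {G : Type} [AddCommGroup G] [Fintype G] (F : G → ℂ) (g : G) :
    ∑ c, F c = ∑ c, F (c + g) :=
  (Equiv.sum_comp (Equiv.addRight g) F).symm

theorem mon_add_single {R : Type} [Field R] {m : ℕ} (c : Fin m → R) (i : Fin m) (t : R) :
    mon (c + Pi.single i t) = mon c + C t * X ^ (i : ℕ) := by
  unfold mon
  rw [add_assoc]
  congr 1
  simp_rw [Pi.add_apply, C_add, add_mul, Finset.sum_add_distrib]
  congr 1
  rw [Finset.sum_eq_single i]
  · rw [Pi.single_eq_same]
  · intro j _ hj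
    rw [Pi.single_eq_of_ne hj]
    simp
  · intro h
    exact absurd (Finset.mem_univ i) h

theorem fsum_add_low {R : Type} [Field R] (f g : R[X]) (hg : g.Monic)
    (hf : 1 ≤ f.natDegree) (hfm : f.natDegree ≤ g.natDegree) (t : R) :
    fsum f (g + C t * X ^ (g.natDegree - f.natDegree))
      = fsum f g + -(f.coeff f.natDegree * f.natDegree) * t := by
  unfold fsum
  rw [Finset.sum_range_succ, Finset.sum_range_succ, psum_add_eq g hg f.natDegree hf hfm t]
  have h : ∑ l ∈ Finset.range f.natDegree,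
      f.coeff l * psum (g + C t * X ^ (g.natDegree - f.natDegree)) l
      = ∑ l ∈ Finset.range f.natDegree, f.coeff l * psum g l := by
    refine Finset.sum_congr rfl (fun l hl => ?_)
    rw [psum_add_low g hg f.natDegree hf hfm t l (Finset.mem_range.mp hl)]
  rw [h]
  ring

/-- PROOF. `k = deg f ≤ m`. The translation `c ↦ c + t 1_{m-k}` is a bijection of `Fin m → F`; by
`psum_add_low`, `psum_add_eq` it changes `fsum f (mon c)` by `- k f_k t`. So
`A = ψ(-k f_k t) A` for every `t`; `k f_k ≠ 0` in `F`, so `ψ(-k f_k t) ≠ 1` for some `t`. -/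
theorem Acoef_eq_zero (p : ℕ) [Fact p.Prime] (ψ : AddChar (ZMod p) ℂ) (hψ : ψ ≠ 1)
    (f : (ZMod p)[X]) (hf : 1 ≤ f.natDegree) (hfp : f.natDegree < p) (m : ℕ)
    (hm : f.natDegree ≤ m) : Acoef p ψ f m = 0 := by
  obtain ⟨x, hx⟩ : ∃ x, ψ x ≠ 1 := by
    by_contra hcon
    push Not at hcon
    refine hψ ?_
    ext x
    rw [hcon x, AddChar.one_apply]
  have hlead : f.coeff f.natDegree ≠ 0 := by
    rw [coeff_natDegree, Ne, leadingCoeff_eq_zero]
    intro h0
    rw [h0, natDegree_zero] at hf
    omega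
  have hk : ((f.natDegree : ℕ) : ZMod p) ≠ 0 := by
    rw [Ne, ZMod.natCast_eq_zero_iff]
    intro hdvd
    have := Nat.le_of_dvd (by omega) hdvd
    omega
  have ha : -(f.coeff f.natDegree * (f.natDegree : ZMod p)) ≠ 0 :=
    neg_ne_zero.mpr (mul_ne_zero hlead hk)
  set a : ZMod p := -(f.coeff f.natDegree * (f.natDegree : ZMod p)) with hadef
  set t : ZMod p := x / a with ht
  have hat : a * t = x := by
    rw [ht]
    field_simp
  have hi : m - f.natDegree < m := by omega
  set i : Fin m := ⟨m - f.natDegree, hi⟩ with hidef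
  have hshift : Acoef p ψ f m = ψ x * Acoef p ψ f m := by
    have h1 : Acoef p ψ f m = ∑ c : Fin m → ZMod p, ψ (fsum f (mon (c + Pi.single i t))) :=
      sum_shift (fun c : Fin m → ZMod p => ψ (fsum f (mon c))) (Pi.single i t)
    rw [h1]
    conv_rhs => rw [← h1]
    unfold Acoef
    rw [Finset.mul_sum]
    refine Finset.sum_congr rfl (fun c _ => ?_)
    have hd : (mon c).natDegree = m := mon_natDegree c
    have h2 : mon (c + Pi.single i t)
        = mon c + C t * X ^ ((mon c).natDegree - f.natDegree) := by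
      rw [mon_add_single, hd]
    rw [h2, fsum_add_low f (mon c) (mon_monic c) hf (by rw [hd]; exact hm) t, ← hadef, hat,
      AddChar.map_add_eq_mul, mul_comm]
  have h3 : (1 - ψ x) * Acoef p ψ f m = 0 := by
    rw [sub_mul, one_mul, ← hshift, sub_self]
  rcases mul_eq_zero.mp h3 with h | h
  · exact absurd (sub_eq_zero.mp h).symm hx
  · exact h

end Vale.Agent.P042.UB
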