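import Vale.Agent.Lib.P042.UB.Weil.Defs

set_option autoImplicit false

namespace Vale.Agent.P042.UB

open Polynomial

/-- Every monic polynomial of degree `m` is `mon c` for a unique `c`. -/
theorem exists_mon {R : Type} [Field R] (g : R[X]) (hg : g.Monic) :
    ∃ c : Fin g.natDegree → R, mon c = g := by
  refine ⟨fun i => g.coeff i, ?_⟩
  unfold mon
  conv_rhs => rw [hg.as_sum]
  congr 1
  exact Fin.sum_univ_eq_sum_range (fun i => C (g.coeff i) * X ^ i) g.natDegree

theorem mon_injective {R : Type} [Field R] {m : ℕ} :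
    Function.Injective (mon : (Fin m → R) → R[X]) := by
  have hcoeff : ∀ (c : Fin m → R) (i : Fin m), (mon c).coeff i = c i := by
    intro c i
    unfold mon
    rw [coeff_add, coeff_X_pow, if_neg (by have := i.2; omega), zero_add, finsetSum_coeff]
    rw [Finset.sum_eq_single i]
    · simp
    · intro j _ hj
      rw [coeff_C_mul, coeff_X_pow, if_neg, mul_zero]
      intro h
      exact hj (Fin.ext h.symm)
    · intro h
      exact absurd (Finset.mem_univ i) h
  intro c d h
  funext i
  rw [← hcoeff c i, ← hcoeff d i, h]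

/-! ### logarithmic derivative -/

/-- `T u' / u` -/
noncomputable def ld {R : Type} [Field R] (u : PowerSeries R) : PowerSeries R :=
  PowerSeries.X * PowerSeries.derivative R u * u⁻¹

theorem ld_mul {R : Type} [Field R] {u v : PowerSeries R}
    (hu : PowerSeries.constantCoeff u ≠ 0) (hv : PowerSeries.constantCoeff v ≠ 0) :
    ld (u * v) = ld u + ld v := by
  unfold ld
  rw [Derivation.leibniz, PowerSeries.mul_inv_rev, smul_eq_mul, smul_eq_mul]
  have h1 := PowerSeries.mul_inv_cancel u hu
  have h2 := PowerSeries.mul_inv_cancel v hv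
  calc PowerSeries.X * (u * PowerSeries.derivative R v + v * PowerSeries.derivative R u) *
        (v⁻¹ * u⁻¹)
      = PowerSeries.X * PowerSeries.derivative R u * u⁻¹ * (v * v⁻¹) +
        PowerSeries.X * PowerSeries.derivative R v * v⁻¹ * (u * u⁻¹) := by ring
    _ = _ := by rw [h1, h2, mul_one, mul_one]

theorem ld_mul_self {R : Type} [Field R] {u : PowerSeries R}
    (hu : PowerSeries.constantCoeff u ≠ 0) :
    ld u * u = PowerSeries.X * PowerSeries.derivative R u := by
  unfold ld
  rw [mul_assoc, PowerSeries.inv_mul_cancel u hu, mul_one]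

theorem constantCoeff_ld {R : Type} [Field R] (u : PowerSeries R) :
    PowerSeries.constantCoeff (ld u) = 0 := by
  unfold ld
  simp

theorem constantCoeff_reverse {R : Type} [Field R] {g : R[X]} (hg : g.Monic) :
    PowerSeries.constantCoeff (g.reverse : PowerSeries R) = 1 := by
  rw [← PowerSeries.coeff_zero_eq_constantCoeff_apply, Polynomial.coeff_coe, coeff_zero_reverse]
  exact hg

theorem psum_pos {R : Type} [Field R] (g : R[X]) {l : ℕ} (hl : l ≠ 0) :
    psum g l = -PowerSeries.coeff l (ld (g.reverse : PowerSeries R)) := by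
  unfold psum ld
  rw [if_neg hl]

theorem psum_zero {R : Type} [Field R] (g : R[X]) : psum g 0 = (g.natDegree : R) := by
  unfold psum
  rw [if_pos rfl]

/-- PROOF. `reverse (g₁ g₂) = reverse g₁ * reverse g₂` (`Polynomial.reverse_mul_of_domain`) and
the logarithmic derivative is additive; constant coefficients are `1` for monic polynomials. -/
theorem psum_mul {R : Type} [Field R] (g₁ g₂ : R[X]) (h₁ : g₁.Monic) (h₂ : g₂.Monic) (l : ℕ) :
    psum (g₁ * g₂) l = psum g₁ l + psum g₂ l := by
  rcases eq_or_ne l 0 with rfl | hl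
  · rw [psum_zero, psum_zero, psum_zero, h₁.natDegree_mul h₂, Nat.cast_add]
  · rw [psum_pos _ hl, psum_pos _ hl, psum_pos _ hl, reverse_mul_of_domain, Polynomial.coe_mul,
      ld_mul (by rw [constantCoeff_reverse h₁]; exact one_ne_zero)
        (by rw [constantCoeff_reverse h₂]; exact one_ne_zero), map_add]
    ring

theorem psum_one {R : Type} [Field R] (l : ℕ) : psum (1 : R[X]) l = 0 := by
  have h := psum_mul (1 : R[X]) 1 monic_one monic_one l
  rw [mul_one] at h
  exact left_eq_add.mp h

theorem psum_pow {R : Type} [Field R] (g : R[X]) (h : g.Monic) (n l : ℕ) :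
    psum (g ^ n) l = n * psum g l := by
  induction n with
  | zero => simp [psum_one]
  | succ n ih =>
    rw [pow_succ, psum_mul _ _ (h.pow n) h, ih]
    push_cast
    ring

/-- PROOF. The reverse of `X - α` is `1 - α T`, and `α T/(1 - α T) = ∑ α^l T^l`. -/
theorem psum_X_sub_C {R : Type} [Field R] (α : R) (l : ℕ) : psum (X - C α) l = α ^ l := by
  rcases eq_or_ne l 0 with rfl | hl
  · rw [psum_zero, natDegree_X_sub_C]
    simp
  · have hrev : (X - C α).reverse = 1 - C α * X := by
      have h1 : (X - C α : R[X]).natDegree = 1 := natDegree_X_sub_C α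
      have h2 : (X - C α : R[X]) = C 1 * X ^ 1 + C (-α) * X ^ 0 := by
        rw [map_one, map_neg]; ring
      unfold reverse
      rw [h1, h2, reflect_add, reflect_C_mul_X_pow, reflect_C_mul_X_pow, revAt_le le_rfl,
        revAt_le (Nat.zero_le 1), map_one, map_neg]
      simp
      ring
    have hinv : (PowerSeries.mk fun n => α ^ n) * ((1 - C α * X : R[X]) : PowerSeries R) = 1 := by
      ext n
      rw [Polynomial.coe_sub, Polynomial.coe_one, Polynomial.coe_mul, Polynomial.coe_C,
        Polynomial.coe_X, mul_sub, mul_one, map_sub]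
      rcases n with _ | n
      · simp
      · rw [← mul_assoc, PowerSeries.coeff_succ_mul_X, PowerSeries.coeff_mul_C]
        simp [PowerSeries.coeff_one, pow_succ]
    have hc : PowerSeries.constantCoeff ((1 - C α * X : R[X]) : PowerSeries R) ≠ 0 := by
      have := constantCoeff_reverse (monic_X_sub_C α)
      rw [hrev] at this
      rw [this]
      exact one_ne_zero
    have hinv' := (PowerSeries.eq_inv_iff_mul_eq_one hc).mpr hinv
    rw [psum_pos _ hl, hrev]
    unfold ld
    rw [← hinv', PowerSeries.derivative_coe]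
    have hder : derivative (1 - C α * X : R[X]) = -C α := by simp
    rw [hder]
    obtain ⟨k, rfl⟩ := Nat.exists_eq_succ_of_ne_zero hl
    rw [mul_assoc, PowerSeries.coeff_succ_X_mul, Polynomial.coe_neg, Polynomial.coe_C, neg_mul,
      map_neg, PowerSeries.coeff_C_mul, PowerSeries.coeff_mk, neg_neg, pow_succ, mul_comm]

theorem map_inv_ps {R R' : Type} [Field R] [Field R'] (φ : R →+* R') (u : PowerSeries R)
    (hu : PowerSeries.constantCoeff u ≠ 0) :
    PowerSeries.map φ u⁻¹ = (PowerSeries.map φ u)⁻¹ := by
  have hc : PowerSeries.constantCoeff (PowerSeries.map φ u) ≠ 0 := by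
    rw [← PowerSeries.coeff_zero_eq_constantCoeff_apply, PowerSeries.coeff_map,
      PowerSeries.coeff_zero_eq_constantCoeff_apply]
    exact (map_ne_zero φ).mpr hu
  rw [PowerSeries.eq_inv_iff_mul_eq_one hc, ← map_mul, PowerSeries.inv_mul_cancel u hu, map_one]

theorem psum_map {R R' : Type} [Field R] [Field R'] (φ : R →+* R') (g : R[X]) (hg : g.Monic)
    (l : ℕ) : psum (g.map φ) l = φ (psum g l) := by
  have hdeg : (g.map φ).natDegree = g.natDegree := natDegree_map φ
  rcases eq_or_ne l 0 with rfl | hl
  · rw [psum_zero, psum_zero, hdeg, map_natCast]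
  · have hrev : (g.map φ).reverse = (g.reverse).map φ := by
      unfold reverse
      rw [hdeg, reflect_map]
    have hc : PowerSeries.constantCoeff (g.reverse : PowerSeries R) ≠ 0 := by
      rw [constantCoeff_reverse hg]; exact one_ne_zero
    have hcoe : ∀ q : R[X], ((q.map φ : R'[X]) : PowerSeries R')
        = PowerSeries.map φ (q : PowerSeries R) := by
      intro q
      ext n
      rw [Polynomial.coeff_coe, Polynomial.coeff_map, PowerSeries.coeff_map, Polynomial.coeff_coe]
    rw [psum_pos _ hl, psum_pos _ hl, hrev, map_neg]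
    congr 1
    rw [← PowerSeries.coeff_map]
    congr 1
    unfold ld
    rw [PowerSeries.derivative_coe, PowerSeries.derivative_coe, map_mul,
      map_mul, map_inv_ps φ _ hc, PowerSeries.map_X, derivative_map, hcoe, hcoe]

/-- For a monic polynomial that splits, `psum` is the power sum of the roots. -/
theorem psum_prod_X_sub_C {R : Type} [Field R] {κ : Type} (s : Finset κ) (α : κ → R) (l : ℕ) :
    psum (∏ i ∈ s, (X - C (α i))) l = ∑ i ∈ s, α i ^ l := by
  classical
  induction s using Finset.induction_on with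
  | empty => simp [psum_one]
  | insert i s hi ih =>
    rw [Finset.prod_insert hi, Finset.sum_insert hi,
      psum_mul _ _ (monic_X_sub_C _) (monic_prod_of_monic _ _ fun j _ => monic_X_sub_C _), ih,
      psum_X_sub_C]

/-! ### changing one coefficient -/

theorem low_degree {R : Type} [Field R] (g : R[X]) (k : ℕ) (hk : 1 ≤ k)
    (hkm : k ≤ g.natDegree) (t : R) :
    (C t * X ^ (g.natDegree - k)).degree < g.degree := by
  have hg0 : g ≠ 0 := by
    rintro rfl
    simp at hkm
    omega
  rw [degree_eq_natDegree hg0]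
  refine lt_of_le_of_lt (degree_C_mul_X_pow_le _ _) ?_
  exact_mod_cast (by omega : g.natDegree - k < g.natDegree)

theorem low_natDegree {R : Type} [Field R] (g : R[X]) (k : ℕ) (hk : 1 ≤ k)
    (hkm : k ≤ g.natDegree) (t : R) :
    (g + C t * X ^ (g.natDegree - k)).natDegree = g.natDegree :=
  natDegree_eq_of_degree_eq (degree_add_eq_left_of_degree_lt (low_degree g k hk hkm t))

theorem low_monic {R : Type} [Field R] (g : R[X]) (hg : g.Monic) (k : ℕ) (hk : 1 ≤ k)
    (hkm : k ≤ g.natDegree) (t : R) : (g + C t * X ^ (g.natDegree - k)).Monic :=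
  hg.add_of_left (low_degree g k hk hkm t)

theorem low_reverse {R : Type} [Field R] (g : R[X]) (k : ℕ) (hk : 1 ≤ k)
    (hkm : k ≤ g.natDegree) (t : R) :
    (g + C t * X ^ (g.natDegree - k)).reverse = g.reverse + C t * X ^ k := by
  unfold reverse
  rw [low_natDegree g k hk hkm t, reflect_add, reflect_C_mul_X_pow, revAt_le (by omega)]
  congr 3
  omega

theorem ld_low {R : Type} [Field R] (g : R[X]) (hg : g.Monic) (k : ℕ) (hk : 1 ≤ k)
    (hkm : k ≤ g.natDegree) (t : R) :
    ld ((g + C t * X ^ (g.natDegree - k)).reverse : PowerSeries R) =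
      ld (g.reverse : PowerSeries R) + PowerSeries.X ^ k *
        ((PowerSeries.C ((k : R) * t) - PowerSeries.C t *
          ld ((g + C t * X ^ (g.natDegree - k)).reverse : PowerSeries R)) *
          (g.reverse : PowerSeries R)⁻¹) := by
  set u : PowerSeries R := (g.reverse : PowerSeries R) with hu
  set u' : PowerSeries R := ((g + C t * X ^ (g.natDegree - k)).reverse : PowerSeries R) with hu'
  have hc : PowerSeries.constantCoeff u ≠ 0 := by
    rw [hu, constantCoeff_reverse hg]; exact one_ne_zero
  have hc' : PowerSeries.constantCoeff u' ≠ 0 := by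
    rw [hu', constantCoeff_reverse (low_monic g hg k hk hkm t)]; exact one_ne_zero
  have huu : u' = u + PowerSeries.C t * PowerSeries.X ^ k := by
    rw [hu', low_reverse g k hk hkm t, Polynomial.coe_add, Polynomial.coe_mul, Polynomial.coe_C,
      Polynomial.coe_pow, Polynomial.coe_X]
  have hder : PowerSeries.X * PowerSeries.derivative R u' =
      PowerSeries.X * PowerSeries.derivative R u +
        PowerSeries.C ((k : R) * t) * PowerSeries.X ^ k := by
    rw [huu, map_add, Derivation.leibniz, PowerSeries.derivative_C, PowerSeries.derivative_pow,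
      PowerSeries.derivative_X, smul_eq_mul, smul_zero, add_zero, map_mul, map_natCast]
    obtain ⟨j, rfl⟩ : ∃ j, k = j + 1 := ⟨k - 1, by omega⟩
    rw [Nat.add_sub_cancel]
    ring
  have h1 := ld_mul_self hc
  have h2 := ld_mul_self hc'
  rw [hder, ← h1] at h2
  have h3 : (ld u' - ld u) * u = PowerSeries.X ^ k *
      (PowerSeries.C ((k : R) * t) - PowerSeries.C t * ld u') := by
    have h4 : ld u' * u = ld u' * u' - ld u' * (PowerSeries.C t * PowerSeries.X ^ k) := by
      rw [huu]
      ring
    rw [sub_mul, h4, h2]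
    ring
  have h5 : (ld u' - ld u) * u * u⁻¹ = PowerSeries.X ^ k *
      (PowerSeries.C ((k : R) * t) - PowerSeries.C t * ld u') * u⁻¹ := by rw [h3]
  rw [mul_assoc, PowerSeries.mul_inv_cancel u hc, mul_one, mul_assoc] at h5
  rw [← h5]
  ring

/-- Changing the coefficient of `X^{m-k}` by `t`: power sums below `k` do not change.

PROOF. The reversed polynomial changes from `u` to `u + t T^k`, so modulo `T^{k+1}` the series
`T u'/u` changes by `k t T^k`: `T (u' + k t T^{k-1})/(u + t T^k)`, where
`1/(u + t T^k) = 1/u - t T^k + O(T^{k+1})` and `T u' = O(T)`. -/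
theorem psum_add_low {R : Type} [Field R] (g : R[X]) (hg : g.Monic) (k : ℕ) (hk : 1 ≤ k)
    (hkm : k ≤ g.natDegree) (t : R) (l : ℕ) (hl : l < k) :
    psum (g + C t * X ^ (g.natDegree - k)) l = psum g l := by
  rcases eq_or_ne l 0 with rfl | hl0
  · rw [psum_zero, psum_zero, low_natDegree g k hk hkm t]
  · rw [psum_pos _ hl0, psum_pos _ hl0, ld_low g hg k hk hkm t, map_add,
      PowerSeries.coeff_X_pow_mul', if_neg (by omega), add_zero]

theorem psum_add_eq {R : Type} [Field R] (g : R[X]) (hg : g.Monic) (k : ℕ) (hk : 1 ≤ k)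
    (hkm : k ≤ g.natDegree) (t : R) :
    psum (g + C t * X ^ (g.natDegree - k)) k = psum g k - k * t := by
  have hk0 : k ≠ 0 := by omega
  rw [psum_pos _ hk0, psum_pos _ hk0, ld_low g hg k hk hkm t, map_add,
    PowerSeries.coeff_X_pow_mul', if_pos le_rfl, Nat.sub_self,
    PowerSeries.coeff_zero_eq_constantCoeff_apply]
  simp only [map_mul, map_sub, constantCoeff_ld, PowerSeries.constantCoeff_inv,
    constantCoeff_reverse hg, PowerSeries.constantCoeff_C, mul_zero, sub_zero, inv_one, mul_one]
  ring

theorem fsum_mul {R : Type} [Field R] (f g₁ g₂ : R[X]) (h₁ : g₁.Monic) (h₂ : g₂.Monic) :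
    fsum f (g₁ * g₂) = fsum f g₁ + fsum f g₂ := by
  unfold fsum
  rw [← Finset.sum_add_distrib]
  refine Finset.sum_congr rfl fun l _ => ?_
  rw [psum_mul _ _ h₁ h₂, mul_add]

end Vale.Agent.P042.UB
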