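import Vale.Agent.Lib.P042.UB.Defs

set_option autoImplicit false

namespace Vale.Agent.P042.UB

open Polynomial
open scoped Function

/-- the degree of `∑_{i<ν} F^(p^i)` -/
theorem stepanov_deg {K : Type} [Field K] {p μ k : ℕ} (hp : 2 ≤ p) (hk : 1 ≤ k) {F : K[X]}
    (hF : F.natDegree = k) :
    (∑ i ∈ Finset.range (μ + 1), F ^ (p ^ i)).natDegree = k * p ^ μ := by
  have h1 : (F ^ (p ^ μ)).natDegree = k * p ^ μ := by
    rw [natDegree_pow, hF, mul_comm]
  have hpos : 0 < k * p ^ μ := by positivity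
  have h2 : (∑ i ∈ Finset.range μ, F ^ (p ^ i)).natDegree ≤ k * p ^ μ - 1 := by
    refine natDegree_sum_le_of_forall_le _ _ fun i hi => ?_
    rw [natDegree_pow, hF]
    have h3 : p ^ i < p ^ μ := Nat.pow_lt_pow_right (by omega) (Finset.mem_range.1 hi)
    have h4 : p ^ i * k < p ^ μ * k := Nat.mul_lt_mul_of_pos_right h3 (by omega)
    have h5 : p ^ μ * k = k * p ^ μ := mul_comm _ _
    omega
  rw [Finset.sum_range_succ, natDegree_add_eq_right_of_natDegree_lt, h1]
  rw [h1]
  omega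

/-- the numbers `l + s i + k t j` are distinct -/
theorem stepanov_inj {p t k i i' j j' l l' : ℕ} (ht : 0 < t) (hcop : Nat.Coprime k p)
    (hj : j < p) (hj' : j' < p) (hl : l < t) (hl' : l' < t)
    (h : l + p * t * i + j * (k * t) = l' + p * t * i' + j' * (k * t)) :
    i = i' ∧ j = j' ∧ l = l' := by
  have h1 : l + t * (p * i + k * j) = l' + t * (p * i' + k * j') := by
    calc l + t * (p * i + k * j) = l + p * t * i + j * (k * t) := by ring
      _ = l' + p * t * i' + j' * (k * t) := h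
      _ = l' + t * (p * i' + k * j') := by ring
  have h2 : l = l' := by
    have := congrArg (fun x => x % t) h1
    simp only [Nat.add_mul_mod_self_left] at this
    rwa [Nat.mod_eq_of_lt hl, Nat.mod_eq_of_lt hl'] at this
  subst h2
  have h3 : p * i + k * j = p * i' + k * j' :=
    Nat.eq_of_mul_eq_mul_left ht (Nat.add_left_cancel h1)
  have h4 : k * j ≡ k * j' [MOD p] := by
    have := congrArg (fun x => x % p) h3
    simp only [Nat.mul_add_mod] at this
    exact this
  have h5 : j ≡ j' [MOD p] := Nat.ModEq.cancel_left_of_coprime hcop.symm h4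
  have h6 : j = j' := Nat.ModEq.eq_of_lt_of_lt h5 hj hj'
  subst h6
  have h7 : p * i = p * i' := Nat.add_right_cancel h3
  exact ⟨Nat.eq_of_mul_eq_mul_left (by omega) h7, rfl, rfl⟩

/-- Stepanov's method (Bombieri's variant) for `Tr f(x) = c` over the field with `p^{2ν}` elements.

PROOF. `k = deg f`, `s = p^ν`, `q = s^2 = |K|`. Let `τ(u) = ∑_{i<ν} u^{p^i}` and
`G = τ(f) = ∑_{i<ν} f^{p^i} ∈ K[X]`, of degree `k s/p` (`f` mapped to `K[X]`; the term
`i = ν-1` dominates). For `x ∈ K`: `∑_{i<2ν} f(x)^{p^i} = G(x) + G(x)^s`. So for `x` in the set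
`Z`: `G(x)^s = c - G(x)`. Put `I = s/p + k + 1` (`s/p = p^{ν-1}`). Consider families
`P = (P_{ij})_{i<I, j<p}` of polynomials in `K[X]` of degree `< s/p`; there are
`q^{I p (s/p)} = q^{I s}` of them. The map
`P ↦ W(P) = ∑_{i,j} P_{ij}^s X^i (c - G)^j` is additive (Frobenius: `(P+P')^s = P^s + P'^s`) and
`deg W(P) ≤ s (s/p - 1) + (I-1) + (p-1) k s/p`, so it takes at most `q^{D+1}` values, `D` the
right-hand side, and `I s > D + 1`: indeed `I (s-1) = s²/p + k s + s - s/p - k - 1` and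
`D + 1 - I = s²/p - s + k s - k s/p`. Pigeonhole: some family `P ≠ 0` has `W(P) = 0`. Put
`V = ∑_{i,j} P_{ij} X^{s i} G^j`. Since `deg (P_{ij} X^{si} G^j) = deg P_{ij} + (s/p)(p i + k j)`
with `0 ≤ deg P_{ij} < s/p`, and the numbers `p i + k j` (`j < p`) are distinct because
`1 ≤ k < p` is prime to `p`, the nonzero terms have distinct degrees, so `V ≠ 0`. For `x ∈ Z`:
`V(x)^s = ∑ P_{ij}(x)^s x^{s² i} G(x)^{s j} = ∑ P_{ij}(x)^s x^i (c - G(x))^j = W(P)(x) = 0`,
using `x^q = x` (`FiniteField.pow_card`). So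
`|Z| ≤ deg V ≤ (s/p - 1) + s (I - 1) + (p-1) k s/p ≤ s²/p + 2 k s + s/p`. Multiply by `p`. -/
theorem stepanov (p : ℕ) [Fact p.Prime] (K : Type) [Field K] [Fintype K] [DecidableEq K]
    [Algebra (ZMod p) K] (ν : ℕ) (hν : 1 ≤ ν) (hK : Fintype.card K = p ^ (2 * ν))
    (f : (ZMod p)[X]) (hf : 1 ≤ f.natDegree) (hfp : f.natDegree < p) (c : ZMod p) :
    p * (Finset.univ.filter (fun x : K =>
      ∑ i ∈ Finset.range (2 * ν), (aeval x f) ^ (p ^ i) = algebraMap (ZMod p) K c)).card ≤
      p ^ (2 * ν) + (2 * f.natDegree + 1) * p * p ^ ν := by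
  classical
  have : CharP K p := charP_of_injective_algebraMap (algebraMap (ZMod p) K).injective p
  have hp : p.Prime := Fact.out
  obtain ⟨μ, rfl⟩ : ∃ μ, ν = μ + 1 := ⟨ν - 1, by omega⟩
  obtain ⟨k, hk⟩ : ∃ k, k = f.natDegree := ⟨_, rfl⟩
  rw [← hk] at hf hfp ⊢
  obtain ⟨t, ht⟩ : ∃ t, t = p ^ μ := ⟨_, rfl⟩
  obtain ⟨s, hs⟩ : ∃ s, s = p ^ (μ + 1) := ⟨_, rfl⟩
  have htpos : 0 < t := by
    rw [ht]
    exact pow_pos hp.pos μ
  have hst : s = p * t := by rw [hs, ht, pow_succ, mul_comm]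
  have hs2 : p ^ (2 * (μ + 1)) = s * s := by rw [hs, ← pow_add]; congr 1; ring
  have hp2 := hp.two_le
  have hts : 2 * t ≤ s := by
    rw [hst]
    exact Nat.mul_le_mul_right t hp2
  set F : K[X] := f.map (algebraMap (ZMod p) K) with hF
  have hFdeg : F.natDegree = k := by rw [hF, natDegree_map, hk]
  set G : K[X] := ∑ i ∈ Finset.range (μ + 1), F ^ (p ^ i) with hG
  have hGdeg : G.natDegree = k * t := by
    rw [ht]
    exact stepanov_deg hp2 hf hFdeg
  have hG0 : G ≠ 0 := by
    intro h0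
    rw [h0, natDegree_zero] at hGdeg
    have : 0 < k * t := by positivity
    omega
  -- the linear algebra
  set I := t + k + 1 with hI
  set D := s * (t - 1) + (I - 1) + (p - 1) * (k * t) with hD
  have hDI : D + 1 < I * (p * t) := by
    obtain ⟨t', rfl⟩ : ∃ t', t = t' + 1 := ⟨t - 1, by omega⟩
    obtain ⟨p', rfl⟩ : ∃ p', p = p' + 1 := ⟨p - 1, by omega⟩
    rw [hD, hI, hst]
    simp only [Nat.add_sub_cancel]
    nlinarith [Nat.zero_le (k * t'), Nat.zero_le (p' * t'), Nat.zero_le p', Nat.zero_le t']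
  set v : (Fin I × Fin p) × Fin t → K[X] := fun x =>
    X ^ (s * (x.2 : ℕ) + (x.1.1 : ℕ)) * (C (algebraMap (ZMod p) K c) - G) ^ (x.1.2 : ℕ) with hv
  have hvdeg : ∀ x, (v x).natDegree ≤ D := by
    rintro ⟨⟨i, j⟩, l⟩
    have h1 : (C (algebraMap (ZMod p) K c) - G).natDegree ≤ k * t := by
      refine (natDegree_sub_le _ _).trans ?_
      rw [natDegree_C, hGdeg]
      omega
    have h2 : (v ((i, j), l)).natDegree ≤ (s * (l : ℕ) + (i : ℕ)) + (j : ℕ) * (k * t) :=
      natDegree_mul_le_of_le (natDegree_X_pow_le _) (natDegree_pow_le_of_le _ h1)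
    refine h2.trans ?_
    have h3 : s * (l : ℕ) ≤ s * (t - 1) := Nat.mul_le_mul_left s (by have := l.2; omega)
    have h4 : (j : ℕ) * (k * t) ≤ (p - 1) * (k * t) :=
      Nat.mul_le_mul_right _ (by have := j.2; omega)
    have h5 := i.2
    omega
  have hrel : ∃ g : (Fin I × Fin p) × Fin t → K, ∑ x, g x • v x = 0 ∧ ∃ x, g x ≠ 0 := by
    have hmem : ∀ x, v x ∈ degreeLT K (D + 1) := by
      intro x
      rw [mem_degreeLT]
      refine degree_le_natDegree.trans_lt ?_
      exact_mod_cast Nat.lt_succ_of_le (hvdeg x)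
    have : Module.Finite K (degreeLT K (D + 1)) :=
      Module.Finite.equiv (degreeLTEquiv K (D + 1)).symm
    have hrank : Module.finrank K (degreeLT K (D + 1)) = D + 1 := by
      rw [(degreeLTEquiv K (D + 1)).finrank_eq, Module.finrank_fin_fun]
    have hnot : ¬ LinearIndependent K (fun x => (⟨v x, hmem x⟩ : degreeLT K (D + 1))) := by
      intro hli
      have h1 := hli.fintype_card_le_finrank
      rw [hrank, Fintype.card_prod, Fintype.card_prod, Fintype.card_fin, Fintype.card_fin,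
        Fintype.card_fin, mul_assoc] at h1
      omega
    obtain ⟨g, hg, hg0⟩ := Fintype.not_linearIndependent_iff.1 hnot
    refine ⟨g, ?_, hg0⟩
    have h2 := congrArg (fun y : degreeLT K (D + 1) => (y : K[X])) hg
    simpa using h2
  obtain ⟨g, hg, x₀, hx₀⟩ := hrel
  -- the auxiliary polynomial
  set U : (Fin I × Fin p) × Fin t → K[X] := fun x =>
    C (g x ^ s) * X ^ ((x.2 : ℕ) + s * (x.1.1 : ℕ)) * G ^ (x.1.2 : ℕ) with hU
  have hU0 : ∀ x, g x ≠ 0 → (U x).natDegree =
      (x.2 : ℕ) + p * t * (x.1.1 : ℕ) + (x.1.2 : ℕ) * (k * t) := by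
    intro x hx
    have h1 : C (g x ^ s) ≠ 0 := by
      rw [Ne, C_eq_zero]
      exact pow_ne_zero _ hx
    rw [hU]
    simp only
    rw [natDegree_mul (mul_ne_zero h1 (pow_ne_zero _ X_ne_zero)) (pow_ne_zero _ hG0),
      natDegree_mul h1 (pow_ne_zero _ X_ne_zero), natDegree_C, natDegree_X_pow, natDegree_pow,
      hGdeg, zero_add, hst]
  have hUle : ∀ x, (U x).natDegree ≤ (t - 1) + s * (t + k) + (p - 1) * (k * t) := by
    intro x
    by_cases hx : g x = 0
    · rw [hU]
      simp [hx, hs, hp.ne_zero]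
    · rw [hU0 x hx, ← hst]
      have h1 : s * (x.1.1 : ℕ) ≤ s * (t + k) :=
        Nat.mul_le_mul_left s (by have := x.1.1.2; omega)
      have h2 : (x.1.2 : ℕ) * (k * t) ≤ (p - 1) * (k * t) :=
        Nat.mul_le_mul_right _ (by have := x.1.2.2; omega)
      have h3 := x.2.2
      omega
  set V : K[X] := ∑ x, U x with hV
  have hV0 : V ≠ 0 := by
    have hdis : Set.Pairwise {x | x ∈ Finset.univ ∧ U x ≠ 0} (Ne on degree ∘ U) := by
      rintro x ⟨_, hx⟩ y ⟨_, hy⟩ hxy hd
      apply hxy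
      have hgx : g x ≠ 0 := by
        intro h0
        apply hx
        rw [hU]
        simp [h0, hs, hp.ne_zero]
      have hgy : g y ≠ 0 := by
        intro h0
        apply hy
        rw [hU]
        simp [h0, hs, hp.ne_zero]
      have h1 : (U x).natDegree = (U y).natDegree := natDegree_eq_of_degree_eq hd
      rw [hU0 x hgx, hU0 y hgy] at h1
      have hcop : Nat.Coprime k p := (Nat.coprime_of_lt_prime (by omega) hfp hp).symm
      obtain ⟨e1, e2, e3⟩ := stepanov_inj htpos hcop x.1.2.2 y.1.2.2 x.2.2 y.2.2 h1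
      exact Prod.ext (Prod.ext (Fin.ext e1) (Fin.ext e2)) (Fin.ext e3)
    have h1 := degree_sum_eq_of_disjoint U Finset.univ hdis
    intro h0
    rw [← hV, h0, degree_zero] at h1
    have h2 : degree (U x₀) ≤ Finset.univ.sup fun i => degree (U i) :=
      Finset.le_sup (f := fun i => degree (U i)) (Finset.mem_univ x₀)
    rw [← h1, le_bot_iff, degree_eq_bot] at h2
    have h3 : C (g x₀ ^ s) ≠ 0 := by
      rw [Ne, C_eq_zero]
      exact pow_ne_zero _ hx₀
    exact (mul_ne_zero (mul_ne_zero h3 (pow_ne_zero _ X_ne_zero)) (pow_ne_zero _ hG0)) h2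
  have hVdeg : V.natDegree ≤ (t - 1) + s * (t + k) + (p - 1) * (k * t) :=
    natDegree_sum_le_of_forall_le _ _ fun x _ => hUle x
  have hpow : ∀ y : K, y ^ (s * s) = y := by
    intro y
    rw [← hs2, ← hK]
    exact FiniteField.pow_card y
  have hroot : ∀ y : K, ∑ i ∈ Finset.range (2 * (μ + 1)), (aeval y f) ^ (p ^ i) =
      algebraMap (ZMod p) K c → V.eval y = 0 := by
    intro y hy
    have hGy : G.eval y = ∑ i ∈ Finset.range (μ + 1), (aeval y f) ^ (p ^ i) := by
      rw [hG, eval_finsetSum]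
      refine Finset.sum_congr rfl fun i _ => ?_
      rw [eval_pow, hF, eval_map, aeval_def]
    have hGs : (G.eval y) ^ s = algebraMap (ZMod p) K c - G.eval y := by
      rw [← hy, two_mul, Finset.sum_range_add, ← hGy, add_sub_cancel_left, hGy, hs,
        sum_pow_char_pow]
      refine Finset.sum_congr rfl fun i _ => ?_
      rw [← pow_mul, ← pow_add, add_comm i]
    have hpw : (V.eval y) ^ s = 0 := by
      have h1 : (V.eval y) ^ s = ∑ x, ((U x).eval y) ^ s := by
        rw [hV, eval_finsetSum, hs, sum_pow_char_pow]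
      have h2 : ∀ x, ((U x).eval y) ^ s = (g x • v x).eval y := by
        intro x
        rw [hU, hv]
        simp only [eval_mul, eval_C, eval_pow, eval_X, eval_smul, smul_eq_mul, eval_sub]
        have e1 : (eval y G ^ (x.1.2 : ℕ)) ^ s =
            (algebraMap (ZMod p) K c - eval y G) ^ (x.1.2 : ℕ) := by
          rw [← pow_mul, mul_comm, pow_mul, hGs]
        have e2 : (y ^ ((x.2 : ℕ) + s * (x.1.1 : ℕ))) ^ s = y ^ (s * (x.2 : ℕ) + (x.1.1 : ℕ)) := by
          rw [← pow_mul, add_mul, pow_add, pow_add, mul_comm (x.2 : ℕ) s,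
            mul_right_comm s, pow_mul y (s * s), hpow]
        rw [mul_pow, mul_pow, ← pow_mul (g x), hpow, e1, e2, mul_assoc]
      rw [h1, Finset.sum_congr rfl fun x _ => h2 x, ← eval_finsetSum, hg, eval_zero]
    exact pow_eq_zero_iff (by rw [hs]; positivity) |>.1 hpw
  have hcard : (Finset.univ.filter (fun x : K =>
      ∑ i ∈ Finset.range (2 * (μ + 1)), (aeval x f) ^ (p ^ i) = algebraMap (ZMod p) K c)).card ≤
      V.natDegree := by
    apply card_le_degree_of_subset_roots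
    intro y hy
    rw [mem_roots hV0]
    exact hroot y (Finset.mem_filter.1 hy).2
  have hfin := hcard.trans hVdeg
  rw [hs2, ← hs]
  refine (Nat.mul_le_mul_left p hfin).trans ?_
  obtain ⟨t', rfl⟩ : ∃ t', t = t' + 1 := ⟨t - 1, by omega⟩
  obtain ⟨p', rfl⟩ : ∃ p', p = p' + 1 := ⟨p - 1, by omega⟩
  simp only [Nat.add_sub_cancel]
  rw [hst]
  nlinarith [Nat.zero_le (k * t'), Nat.zero_le (p' * t'), Nat.zero_le p', Nat.zero_le t']

end Vale.Agent.P042.UB
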